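import Mathlib

/-! Uniform averages over finite types. -/

namespace Vale.Agent.Lib.P162

open Finset

/-- The uniform average of a real function on a finite type. -/
noncomputable def avg {Ω : Type*} [Fintype Ω] (f : Ω → ℝ) : ℝ :=
  (∑ ω, f ω) / (Fintype.card Ω : ℝ)

section basic

variable {Ω : Type*} [Fintype Ω]

theorem avg_def (f : Ω → ℝ) : avg f = (∑ ω, f ω) / (Fintype.card Ω : ℝ) := rfl

theorem avg_const [Nonempty Ω] (c : ℝ) : avg (fun _ : Ω => c) = c := by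
  unfold avg
  have h : (0 : ℝ) < Fintype.card Ω := by exact_mod_cast Fintype.card_pos
  simp only [Finset.sum_const, Finset.card_univ, nsmul_eq_mul]
  field_simp

theorem avg_mono {f g : Ω → ℝ} (h : ∀ ω, f ω ≤ g ω) : avg f ≤ avg g := by
  unfold avg
  exact div_le_div_of_nonneg_right (Finset.sum_le_sum (fun ω _ => h ω)) (Nat.cast_nonneg _)

theorem avg_nonneg {f : Ω → ℝ} (h : ∀ ω, 0 ≤ f ω) : 0 ≤ avg f := by
  unfold avg
  exact div_nonneg (Finset.sum_nonneg (fun ω _ => h ω)) (Nat.cast_nonneg _)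

theorem avg_add (f g : Ω → ℝ) : avg (fun ω => f ω + g ω) = avg f + avg g := by
  unfold avg
  rw [Finset.sum_add_distrib, add_div]

theorem avg_sub (f g : Ω → ℝ) : avg (fun ω => f ω - g ω) = avg f - avg g := by
  unfold avg
  rw [Finset.sum_sub_distrib, sub_div]

theorem avg_mul_left (c : ℝ) (f : Ω → ℝ) : avg (fun ω => c * f ω) = c * avg f := by
  unfold avg
  rw [← Finset.mul_sum, mul_div_assoc]

theorem avg_mul_right (c : ℝ) (f : Ω → ℝ) : avg (fun ω => f ω * c) = avg f * c := by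
  unfold avg
  rw [← Finset.sum_mul, div_mul_eq_mul_div]

theorem avg_sum {ι : Type*} (s : Finset ι) (f : ι → Ω → ℝ) :
    avg (fun ω => ∑ i ∈ s, f i ω) = ∑ i ∈ s, avg (f i) := by
  unfold avg
  rw [Finset.sum_comm, Finset.sum_div]

theorem avg_prod {α β : Type*} [Fintype α] [Fintype β] (f : α × β → ℝ) :
    avg f = avg (fun a => avg (fun b => f (a, b))) := by
  unfold avg
  rw [Fintype.sum_prod_type, Fintype.card_prod]
  push_cast
  rw [← Finset.sum_div, div_div, mul_comm]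

theorem avg_equiv {α β : Type*} [Fintype α] [Fintype β] (e : α ≃ β) (f : β → ℝ) :
    avg (fun a => f (e a)) = avg f := by
  unfold avg
  rw [Equiv.sum_comp e f, Fintype.card_congr e]

theorem avg_comm {α β : Type*} [Fintype α] [Fintype β] (f : α → β → ℝ) :
    avg (fun a => avg (fun b => f a b)) = avg (fun b => avg (fun a => f a b)) := by
  unfold avg
  rw [← Finset.sum_div, ← Finset.sum_div, Finset.sum_comm, div_div, div_div, mul_comm]

/-- Average over Boolean functions of a product of functions of the single values. -/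
theorem avg_fun_prod {ι : Type*} [Fintype ι] [DecidableEq ι] (φ : ι → Bool → ℝ) :
    avg (fun A : ι → Bool => ∏ i, φ i (A i)) = ∏ i, avg (φ i) := by
  unfold avg
  have h1 : ∑ A : ι → Bool, ∏ i, φ i (A i) = ∏ i, ∑ b, φ i b := by
    have := (Finset.prod_univ_sum (fun _ : ι => (Finset.univ : Finset Bool)) φ)
    rw [this, Fintype.piFinset_univ]
  rw [h1, Finset.prod_div_distrib]
  congr 1
  simp [Fintype.card_pi]

theorem avg_bool (φ : Bool → ℝ) : avg φ = (φ false + φ true) / 2 := by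
  unfold avg
  simp
  ring

/-- A bound for a product average, one factor at a time. -/
theorem avg_fun_prod_le {ι : Type*} [Fintype ι] [DecidableEq ι] (φ : ι → Bool → ℝ) (c : ι → ℝ)
    (h0 : ∀ i, 0 ≤ avg (φ i)) (h : ∀ i, avg (φ i) ≤ c i) :
    avg (fun A : ι → Bool => ∏ i, φ i (A i)) ≤ ∏ i, c i := by
  rw [avg_fun_prod]
  exact Finset.prod_le_prod (fun i _ => h0 i) (fun i _ => h i)

variable [Nonempty Ω]

theorem card_pos_real : (0 : ℝ) < Fintype.card Ω := by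
  exact_mod_cast Fintype.card_pos

theorem avg_le_of_forall {f : Ω → ℝ} {c : ℝ} (h : ∀ ω, f ω ≤ c) : avg f ≤ c := by
  calc avg f ≤ avg (fun _ : Ω => c) := avg_mono h
    _ = c := avg_const c

/-- Hölder's inequality for uniform averages. -/
theorem avg_holder {f g : Ω → ℝ} (hf : ∀ ω, 0 ≤ f ω) (hg : ∀ ω, 0 ≤ g ω) {p q : ℝ}
    (hpq : p.HolderConjugate q) :
    avg (fun ω => f ω * g ω) ≤ avg (fun ω => f ω ^ p) ^ (1 / p) * avg (fun ω => g ω ^ q) ^ (1 / q) := by
  have hN := card_pos_real (Ω := Ω)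
  set N : ℝ := (Fintype.card Ω : ℝ) with hNdef
  have hH := Real.inner_le_Lp_mul_Lq_of_nonneg (Finset.univ : Finset Ω) (f := f) (g := g) hpq
    (fun i _ => hf i) (fun i _ => hg i)
  unfold avg
  rw [← hNdef]
  have h1 : (∑ ω, f ω ^ p) / N = N⁻¹ * ∑ ω, f ω ^ p := by rw [div_eq_inv_mul]
  have h2 : (∑ ω, g ω ^ q) / N = N⁻¹ * ∑ ω, g ω ^ q := by rw [div_eq_inv_mul]
  rw [h1, h2]
  have hs1 : 0 ≤ ∑ ω, f ω ^ p := Finset.sum_nonneg (fun i _ => Real.rpow_nonneg (hf i) _)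
  have hs2 : 0 ≤ ∑ ω, g ω ^ q := Finset.sum_nonneg (fun i _ => Real.rpow_nonneg (hg i) _)
  rw [Real.mul_rpow (inv_nonneg.mpr hN.le) hs1, Real.mul_rpow (inv_nonneg.mpr hN.le) hs2]
  have h3 : N⁻¹ ^ (1 / p) * N⁻¹ ^ (1 / q) = N⁻¹ := by
    rw [← Real.rpow_add (inv_pos.mpr hN), one_div, one_div, hpq.inv_add_inv_eq_one, Real.rpow_one]
  calc (∑ ω, f ω * g ω) / N = N⁻¹ * ∑ ω, f ω * g ω := by rw [div_eq_inv_mul]
    _ ≤ N⁻¹ * ((∑ ω, f ω ^ p) ^ (1 / p) * (∑ ω, g ω ^ q) ^ (1 / q)) :=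
        mul_le_mul_of_nonneg_left hH (inv_nonneg.mpr hN.le)
    _ = (N⁻¹ ^ (1 / p) * N⁻¹ ^ (1 / q)) * ((∑ ω, f ω ^ p) ^ (1 / p) * (∑ ω, g ω ^ q) ^ (1 / q)) := by
        rw [h3]
    _ = _ := by ring

/-- Jensen's inequality for powers. -/
theorem avg_rpow_le {f : Ω → ℝ} (hf : ∀ ω, 0 ≤ f ω) {p : ℝ} (hp : 1 ≤ p) :
    avg f ^ p ≤ avg (fun ω => f ω ^ p) := by
  have hN := card_pos_real (Ω := Ω)
  have h := Real.rpow_arith_mean_le_arith_mean_rpow (Finset.univ : Finset Ω)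
    (fun _ => (Fintype.card Ω : ℝ)⁻¹) f (fun _ _ => (inv_pos.mpr hN).le)
    (by simp [Finset.card_univ]) (fun i _ => hf i) hp
  unfold avg
  rw [← Finset.mul_sum] at h
  rw [← Finset.mul_sum] at h
  rw [div_eq_inv_mul, div_eq_inv_mul]
  exact h

end basic

end Vale.Agent.Lib.P162
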